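import Vale.Agent.P181.DG4a.Core
import Vale.Agent.P181.DGx.H514.Cmp
import Vale.Agent.P181.TW.Defs

set_option autoImplicit false

/-!
# P181, TW (T4): the kernel lemma (helper510)

`P_j = ∑_i X (i, j) ∂/∂X (i, v) = colD j v`. If `g` has degree `M + 1` in the column `v` and total
degree at most `M - 1` in the `M` columns `l`, then `P_1 ⋯ P_M (P_1 + ⋯ + P_M) g = 0` implies
`g = 0`.
-/

open MvPolynomial

namespace Vale.Agent.P181.H510.TW

open Vale.Agent.P181.SZR3 (colD colD_X colD_eq itD itD_zero itD_succ ColH colH_colD)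
open Vale.Agent.P181.DG4a (mv colH_mv mvu colH_mvu itD_inj)
open Vale.Agent.P181.DG.H514 (cmp coeff_cmp_pos colH_cmp cmp_eq_zero cmp_colD cmp_colD_zero)

variable {m : ℕ} {σ : Type} [Fintype σ] [DecidableEq σ]

/-- The product of the operators `P_j`, `j ∈ l`. -/
noncomputable def opL (v : σ) : List σ → MvPolynomial (Fin m × σ) ℂ → MvPolynomial (Fin m × σ) ℂ
  | [], f => f
  | j :: l, f => colD j v (opL v l f)

omit [Fintype σ] in
theorem opL_nil (v : σ) (f : MvPolynomial (Fin m × σ) ℂ) : opL v [] f = f := rfl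

omit [Fintype σ] in
theorem opL_cons (v j : σ) (l : List σ) (f : MvPolynomial (Fin m × σ) ℂ) :
    opL v (j :: l) f = colD j v (opL v l f) := rfl

omit [Fintype σ] in
theorem colD_comm {a b v : σ} (ha : a ≠ v) (hb : b ≠ v) (f : MvPolynomial (Fin m × σ) ℂ) :
    colD a v (colD b v f) = colD b v (colD a v f) := by
  have h : (⁅(colD a v : Derivation ℂ (MvPolynomial (Fin m × σ) ℂ)
      (MvPolynomial (Fin m × σ) ℂ)), (colD b v : Derivation ℂ (MvPolynomial (Fin m × σ) ℂ)
      (MvPolynomial (Fin m × σ) ℂ))⁆) = 0 := by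
    apply derivation_ext
    rintro ⟨k, l⟩
    rw [Derivation.commutator_apply, colD_X, colD_X]
    by_cases hl : l = v
    · simp [hl, colD_X, ha, hb]
    · simp [hl]
  have h1 := congrArg (fun D : Derivation ℂ (MvPolynomial (Fin m × σ) ℂ)
    (MvPolynomial (Fin m × σ) ℂ) => D f) h
  simp only [Derivation.commutator_apply] at h1
  exact sub_eq_zero.1 h1

omit [Fintype σ] in
theorem opL_comm {a v : σ} (ha : a ≠ v) (l : List σ) (hl : v ∉ l)
    (f : MvPolynomial (Fin m × σ) ℂ) : opL v l (colD a v f) = colD a v (opL v l f) := by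
  induction l with
  | nil => rfl
  | cons j l ih =>
    rw [List.mem_cons, not_or] at hl
    rw [opL_cons, opL_cons, ih hl.2, colD_comm (Ne.symm hl.1) ha]

omit [Fintype σ] in
theorem opL_perm {v : σ} {l l' : List σ} (h : l.Perm l') (hl : v ∉ l)
    (f : MvPolynomial (Fin m × σ) ℂ) : opL v l f = opL v l' f := by
  induction h with
  | nil => rfl
  | cons x _ ih =>
    rw [List.mem_cons, not_or] at hl
    rw [opL_cons, opL_cons, ih hl.2]
  | swap x y l =>
    rw [List.mem_cons, List.mem_cons, not_or, not_or] at hl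
    rw [opL_cons, opL_cons, opL_cons, opL_cons, colD_comm (Ne.symm hl.1) (Ne.symm hl.2.1)]
  | trans h1 _ ih1 ih2 =>
    rw [ih1 hl, ih2 (fun h => hl (h1.mem_iff.2 h))]

omit [Fintype σ] in
theorem opL_zero (v : σ) (l : List σ) : opL v l (0 : MvPolynomial (Fin m × σ) ℂ) = 0 := by
  induction l with
  | nil => rfl
  | cons j l ih => rw [opL_cons, ih, map_zero]

/-- Peeling the operators one by one. -/
theorem peel {v : σ} : ∀ (n : ℕ) (l : List σ), l.length = n → l.Nodup → v ∉ l →
    ∀ (d : σ → ℕ) (f : MvPolynomial (Fin m × σ) ℂ), ColH d f → d v = n →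
    (n = 0 ∨ (l.map d).sum < n) → opL v l f = 0 → f = 0 := by
  intro n
  induction n with
  | zero =>
    intro l hl _ _ d f _ _ _ h
    rw [List.length_eq_zero_iff] at hl
    subst hl
    exact h
  | succ n ih =>
    intro l hl hnd hvl d f hf hd hs h
    have hs' : (l.map d).sum < n + 1 := by
      rcases hs with h0 | h0
      · omega
      · exact h0
    obtain ⟨j, hj, hj'⟩ : ∃ j ∈ l, (0 < d j ∨ ∀ b ∈ l, d b = 0) := by
      by_cases hex : ∃ j ∈ l, 0 < d j
      · obtain ⟨j, hj, hj0⟩ := hex
        exact ⟨j, hj, Or.inl hj0⟩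
      · push Not at hex
        obtain ⟨j, hj⟩ : ∃ j, j ∈ l := List.exists_mem_of_length_pos (by omega)
        exact ⟨j, hj, Or.inr fun b hb => Nat.le_zero.1 (hex b hb)⟩
    have hjv : j ≠ v := fun h0 => hvl (h0 ▸ hj)
    have hp : l.Perm (j :: l.erase j) := List.perm_cons_erase hj
    have hsum : (l.map d).sum = d j + ((l.erase j).map d).sum := by
      rw [(hp.map d).sum_eq, List.map_cons, List.sum_cons]
    have hve : v ∉ l.erase j := fun h0 => hvl (List.mem_of_mem_erase h0)
    have hje : j ∉ l.erase j := fun h0 => (hnd.mem_erase_iff.1 h0).1 rfl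
    have hlen : (l.erase j).length = n := by
      rw [List.length_erase_of_mem hj, hl, Nat.add_sub_cancel]
    have hmap : (l.erase j).map (mv d j v) = (l.erase j).map d := by
      refine List.map_congr_left fun b hb => ?_
      have hb1 : b ≠ j := by
        rintro rfl
        exact hje hb
      have hb2 : b ≠ v := by
        rintro rfl
        exact hve hb
      rw [mv, if_neg hb1, if_neg hb2]
    have h1 : opL v (l.erase j) (colD j v f) = 0 := by
      rw [opL_comm hjv _ hve, ← opL_cons, ← opL_perm hp hvl, h]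
    have h2 : colD j v f = 0 := by
      refine ih (l.erase j) hlen (hnd.erase j) hve (mv d j v) (colD j v f)
        (colH_mv hjv hf (by omega)) ?_ ?_ h1
      · rw [mv, if_neg (Ne.symm hjv), if_pos rfl, hd, Nat.add_sub_cancel]
      · rw [hmap]
        rcases hj' with h0 | h0
        · right; omega
        · rcases Nat.eq_zero_or_pos n with hn | hn
          · left; exact hn
          · right
            have h3 : ((l.erase j).map d).sum = 0 := by
              apply List.sum_eq_zero
              intro x hx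
              obtain ⟨b, hb, rfl⟩ := List.mem_map.1 hx
              exact h0 b (List.mem_of_mem_erase hb)
            omega
    refine itD_inj hjv (d j) 1 d f hf rfl (by omega) ?_
    rw [itD_succ, itD_zero, h2]

/-- The degrees after the application of the operators. -/
def mvL (v : σ) : List σ → (σ → ℕ) → (σ → ℕ)
  | [], δ => δ
  | j :: l, δ => mv (mvL v l δ) j v

omit [Fintype σ] in
theorem mvL_v (v : σ) (l : List σ) (hl : v ∉ l) (δ : σ → ℕ) : mvL v l δ v = δ v - l.length := by
  induction l with
  | nil => rfl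
  | cons j l ih =>
    rw [List.mem_cons, not_or] at hl
    rw [mvL, mv, if_neg hl.1, if_pos rfl, ih hl.2, List.length_cons]
    omega

theorem cmp_opL {v : σ} (l : List σ) (hl : v ∉ l) (δ : σ → ℕ) (hδ : l.length ≤ δ v)
    (f : MvPolynomial (Fin m × σ) ℂ) : cmp (mvL v l δ) (opL v l f) = opL v l (cmp δ f) := by
  induction l with
  | nil => rfl
  | cons j l ih =>
    rw [List.mem_cons, not_or] at hl
    rw [List.length_cons] at hδ
    rw [opL_cons, opL_cons, ← ih hl.2 (by omega), mvL]
    refine cmp_colD (fun b => ?_) _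
    have h1 := mvL_v v l hl.2 δ
    rw [mv]
    by_cases hb : b = j
    · subst hb
      simp [hl.1]
    · by_cases hv : b = v
      · subst hv
        rw [if_neg hb, if_pos rfl, if_pos rfl, if_neg (Ne.symm hb)]
        omega
      · rw [if_neg hb, if_neg hv, if_neg (Ne.symm hv), if_neg (Ne.symm hb)]

/-- **(T4)** the kernel lemma, general form. -/
theorem kerL {v : σ} (l : List σ) (hnd : l.Nodup) (hvl : v ∉ l) (hne : l ≠ [])
    (g : MvPolynomial (Fin m × σ) ℂ)
    (hg : ∀ w, coeff w g ≠ 0 → ∑ i, w (i, v) = l.length + 1 ∧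
      (l.map fun j => ∑ i, w (i, j)).sum + 1 ≤ l.length)
    (h : opL v l (l.map fun j => colD j v g).sum = 0) : g = 0 := by
  by_contra hg0
  obtain ⟨w1, hw1⟩ : g.support.Nonempty := support_nonempty.2 hg0
  have hlpos : 0 < l.length := List.length_pos_iff.2 hne
  -- the column `i0`
  obtain ⟨i0, hi0, hi0'⟩ : ∃ i0 ∈ l, ((∃ w ∈ g.support, 0 < ∑ i, w (i, i0)) ∨
      ∀ w ∈ g.support, ∀ b ∈ l, ∑ i, w (i, b) = 0) := by
    by_cases hex : ∃ j ∈ l, ∃ w ∈ g.support, 0 < ∑ i, w (i, j)
    · obtain ⟨j, hj, hj0⟩ := hex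
      exact ⟨j, hj, Or.inl hj0⟩
    · push Not at hex
      obtain ⟨j, hj⟩ : ∃ j, j ∈ l := List.exists_mem_of_length_pos hlpos
      exact ⟨j, hj, Or.inr fun w hw b hb => Nat.le_zero.1 (hex b hb w hw)⟩
  obtain ⟨w0, hw0, hmax⟩ := Finset.exists_max_image g.support (fun w => ∑ i, w (i, i0)) ⟨w1, hw1⟩
  set κ : σ → ℕ := fun b => ∑ i, w0 (i, b) with hκ
  have hc0 : coeff w0 g ≠ 0 := mem_support_iff.1 hw0
  obtain ⟨hκv, hκs⟩ := hg w0 hc0
  have hκv' : κ v = l.length + 1 := hκv
  have hκs' : (l.map κ).sum + 1 ≤ l.length := hκs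
  have hiv : i0 ≠ v := fun h0 => hvl (h0 ▸ hi0)
  have hp : l.Perm (i0 :: l.erase i0) := List.perm_cons_erase hi0
  have hsum : (l.map κ).sum = κ i0 + ((l.erase i0).map κ).sum := by
    rw [(hp.map κ).sum_eq, List.map_cons, List.sum_cons]
  have hve : v ∉ l.erase i0 := fun h0 => hvl (List.mem_of_mem_erase h0)
  have hie : i0 ∉ l.erase i0 := fun h0 => (hnd.mem_erase_iff.1 h0).1 rfl
  have hlen : (l.erase i0).length = l.length - 1 := List.length_erase_of_mem hi0
  -- the component
  have hcmp : cmp (mv κ i0 v) (l.map fun j => colD j v g).sum = colD i0 v (cmp κ g) := by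
    have h1 : ∀ j ∈ l.erase i0, cmp (mv κ i0 v) (colD j v g) = 0 := by
      intro j hj
      have hji : j ≠ i0 := fun h0 => hie (h0 ▸ hj)
      have hjv : j ≠ v := fun h0 => hve (h0 ▸ hj)
      by_cases hz : κ j = 0
      · apply cmp_colD_zero
        rw [mv, if_neg hji, if_neg hjv, hz]
      · rw [cmp_colD (δ := fun b => if b = i0 then κ i0 + 1 else if b = j then κ j - 1 else κ b)]
        · rw [cmp_eq_zero, map_zero]
          intro w hw hw'
          have h2 : ∑ i, w (i, i0) ≤ ∑ i, w0 (i, i0) := hmax w (mem_support_iff.2 hw)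
          have h3 := hw' i0
          simp only [if_true] at h3
          have h4 : κ i0 = ∑ i, w0 (i, i0) := rfl
          omega
        · intro b
          rw [mv]
          by_cases hb1 : b = i0
          · subst hb1
            simp [hji, Ne.symm hiv]
          · by_cases hb2 : b = v
            · subst hb2
              simp [Ne.symm hiv, Ne.symm hjv, hjv, hκv']
            · by_cases hb3 : b = j
              · subst hb3
                simp [hb1, hb2, Ne.symm hb2]
                omega
              · simp [hb1, hb2, hb3, Ne.symm hb2, Ne.symm hb3]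
    have h2 : (l.map fun j => colD j v g).sum =
        colD i0 v g + ((l.erase i0).map fun j => colD j v g).sum := by
      rw [(hp.map fun j => colD j v g).sum_eq, List.map_cons, List.sum_cons]
    have h3 : cmp (mv κ i0 v) ((l.erase i0).map fun j => colD j v g).sum = 0 := by
      rw [map_list_sum, List.map_map]
      apply List.sum_eq_zero
      intro x hx
      obtain ⟨b, hb, rfl⟩ := List.mem_map.1 hx
      exact h1 b hb
    rw [h2, map_add, h3, add_zero]
    refine cmp_colD (fun b => ?_) _
    rw [mv]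
    by_cases hb : b = i0
    · subst hb
      simp [Ne.symm hiv]
    · by_cases hv : b = v
      · subst hv
        simp [Ne.symm hb, hb, hκv']
      · simp [hb, hv, Ne.symm hb, Ne.symm hv]
  have hmvv : mv κ i0 v v = l.length := by
    rw [mv, if_neg (Ne.symm hiv), if_pos rfl, hκv', Nat.add_sub_cancel]
  have h1 : opL v l (colD i0 v (cmp κ g)) = 0 := by
    rw [← hcmp, ← cmp_opL l hvl (mv κ i0 v) (by rw [hmvv]), h, map_zero]
  have h2 : opL v (l.erase i0) (itD i0 v 2 (cmp κ g)) = 0 := by
    rw [itD_succ, itD_succ, itD_zero, opL_comm hiv _ hve, ← opL_cons, ← opL_perm hp hvl, h1]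
  have hmap : (l.erase i0).map (mvu κ i0 v 2) = (l.erase i0).map κ := by
    refine List.map_congr_left fun b hb => ?_
    have hb1 : b ≠ i0 := by
      rintro rfl
      exact hie hb
    have hb2 : b ≠ v := by
      rintro rfl
      exact hve hb
    rw [mvu, if_neg hb1, if_neg hb2]
  have h3 : itD i0 v 2 (cmp κ g) = 0 := by
    refine peel (l.length - 1) (l.erase i0) hlen (hnd.erase i0) hve (mvu κ i0 v 2)
      (itD i0 v 2 (cmp κ g)) (colH_mvu hiv (colH_cmp κ g) 2 (by omega)) ?_ ?_ h2
    · rw [mvu, if_neg (Ne.symm hiv), if_pos rfl, hκv']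
      omega
    · rw [hmap]
      rcases hi0' with ⟨w, hw, hw0'⟩ | h0
      · have h4 : ∑ i, w (i, i0) ≤ ∑ i, w0 (i, i0) := hmax w hw
        have h5 : κ i0 = ∑ i, w0 (i, i0) := rfl
        right
        omega
      · have h4 : (l.map κ).sum = 0 := by
          apply List.sum_eq_zero
          intro x hx
          obtain ⟨b, hb, rfl⟩ := List.mem_map.1 hx
          exact h0 w0 hw0 b hb
        omega
  have h4 : cmp κ g = 0 := itD_inj hiv (κ i0) 2 κ (cmp κ g) (colH_cmp κ g) rfl (by omega) h3
  have h5 : coeff w0 (cmp κ g) = coeff w0 g := coeff_cmp_pos g fun _ => rfl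
  rw [h4, coeff_zero] at h5
  exact hc0 h5.symm

theorem pol_eq {m M : ℕ} (j : Fin M) (f : MvPolynomial (Fin m × Option (Fin M)) ℂ) :
    Vale.Agent.P181.TW.pol j f = colD (some j) none f := by
  rw [colD_eq, Vale.Agent.P181.TW.pol, LinearMap.sum_apply]
  rfl

theorem polAll_eq {m M : ℕ} (f : MvPolynomial (Fin m × Option (Fin M)) ℂ) :
    Vale.Agent.P181.TW.polAll f = opL none ((List.finRange M).map some) f := by
  rw [Vale.Agent.P181.TW.polAll]
  induction List.finRange M with
  | nil => rfl
  | cons j l ih =>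
    rw [List.map_cons, List.prod_cons, List.map_cons, opL_cons, ← ih, ← pol_eq]
    rfl

/-- **(T4)** the kernel lemma, literal of `TW/Defs.lean`. -/
theorem kerM : Vale.Agent.P181.TW.KerM := by
  intro m M g hM hg h
  have hsum : ∀ {A : Type} [AddCommMonoid A] (F : Option (Fin M) → A),
      (((List.finRange M).map some).map F).sum = ∑ j : Fin M, F (some j) := by
    intro A _ F
    rw [List.map_map, Fin.sum_univ_def]
    rfl
  refine kerL (v := none) ((List.finRange M).map some) ?_ ?_ ?_ g ?_ ?_
  · exact (List.nodup_finRange M).map (Option.some_injective _)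
  · simp
  · intro h0
    have h1 := congrArg List.length h0
    rw [List.length_map, List.length_finRange, List.length_nil] at h1
    omega
  · intro w hw
    obtain ⟨h1, h2⟩ := hg w hw
    rw [List.length_map, List.length_finRange, hsum fun b => ∑ i, w (i, b)]
    exact ⟨h1, h2⟩
  · rw [hsum fun b => colD b none g, ← polAll_eq]
    simp only [← pol_eq]
    exact h

end Vale.Agent.P181.H510.TW
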